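import Vale.Agent.P073Y.Rf.Coarse
import Vale.Agent.P073Y.Top.Defs

/-!
# The statements `REFILL` and `CSW` of the top chain
-/

open Set Metric Topology Filter MeasureTheory
open scoped ENNReal NNReal

namespace P073.Rf

open P073.Top

theorem lipc_mul_le {S T : Type} [PseudoEMetricSpace S] [PseudoEMetricSpace T] {g : S → T}
    {X : Set S} {a c : ℝ≥0∞} (h : ∀ u ∈ X, ∀ w ∈ X, edist (g u) (g w) * a ≤ c * edist u w) :
    lipc g X * a ≤ c := by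
  simp only [lipc, ENNReal.iSup_mul]
  refine iSup₂_le fun u hu => iSup₂_le fun w hw => ?_
  rw [div_eq_mul_inv, mul_right_comm, ← div_eq_mul_inv]
  exact ENNReal.div_le_of_le_mul (h u hu w hw)

/-- the normalisation of a cube -/
theorem exists_norm (x : E3) {s : ℝ≥0} (hs : 0 < s) : ∃ n : E3 ≃ᴬ[ℝ] E3,
    n '' closedBall x s = closedBall 0 1 ∧ n '' sphere x s = sphere 0 1 ∧
    LipschitzWith s⁻¹ n ∧ LipschitzWith s n.symm := by
  have h0 : (s : ℝ) ≠ 0 := NNReal.coe_ne_zero.2 hs.ne'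
  let n : E3 ≃ᴬ[ℝ] E3 := ((AffineEquiv.vaddConst ℝ x).symm.trans
    (LinearEquiv.smulOfNeZero ℝ E3 (s : ℝ)⁻¹ (inv_ne_zero h0)).toAffineEquiv).toContinuousAffineEquiv
  have e : ∀ u, n u = (s : ℝ)⁻¹ • (u - x) := fun u => rfl
  have d : ∀ u w, dist (n u) (n w) = (s⁻¹ : ℝ≥0) * dist u w := fun u w => by
    rw [e, e, dist_smul₀, dist_sub_right, norm_inv, NNReal.norm_eq, NNReal.coe_inv]
  have d' : ∀ u w, dist u w = s * dist (n u) (n w) := fun u w => by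
    rw [d, NNReal.coe_inv, mul_inv_cancel_left₀ h0]
  have z : n x = 0 := by rw [e, sub_self, smul_zero]
  refine ⟨n, ?_, ?_, .of_dist_le_mul fun u w => (d u w).le, .of_dist_le_mul fun u w => ?_⟩
  · ext v
    obtain ⟨u, rfl⟩ := n.surjective v
    rw [n.injective.mem_set_image, mem_closedBall, mem_closedBall, d', z]
    exact mul_le_iff_le_one_right (NNReal.coe_pos.2 hs)
  · ext v
    obtain ⟨u, rfl⟩ := n.surjective v
    rw [n.injective.mem_set_image, mem_sphere, mem_sphere, d', z]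
    exact mul_eq_left₀ h0
  · rw [d', n.apply_symm_apply, n.apply_symm_apply]

theorem chart_cube : BiChart 3 (closedBall (0 : E3) 1) (sphere 0 1) 1 :=
  ⟨sphere_subset_closedBall, .refl (Convex.conicalSet (convex_closedBall (0 : E3) 1)), image_id _,
    LipschitzWith.id.lipschitzOnWith, LipschitzWith.id.lipschitzOnWith⟩

/-- the energy after an affine change of the source -/
theorem en_aff {k : ℕ} {p : ℝ} (hp : 0 < p) (n : E3 ≃ᴬ[ℝ] E3) {K L : ℝ≥0}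
    (hK : LipschitzWith K n) (hL : LipschitzWith L n.symm) {X : Set E3} (hX : IsCompact X)
    (h : E3 → E3) :
    En k p h X ≤ (K : ℝ≥0∞) ^ p * (L : ℝ≥0∞) ^ k * En k p (h ∘ n.symm) (n '' X) ∧
    En k p (h ∘ n.symm) (n '' X) ≤ (L : ℝ≥0∞) ^ p * (K : ℝ≥0∞) ^ k * En k p h X := by
  have m : MapsTo n.symm (n '' X) X := by
    rintro _ ⟨u, hu, rfl⟩
    rwa [n.symm_apply_apply]
  refine ⟨le_of_eq_of_le ?_ (EN.en_comp_le hp (hX.image n.continuous).measurableSet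
    (mapsTo_image n X) m (fun u _ => n.symm_apply_apply u) (fun u _ => n.apply_symm_apply u)
    hK.lipschitzOnWith hL.lipschitzOnWith), EN.en_comp_le hp hX.measurableSet m (mapsTo_image n X)
    (fun u _ => n.apply_symm_apply u) (fun u _ => n.symm_apply_apply u)
    hL.lipschitzOnWith hK.lipschitzOnWith⟩
  congr 1
  funext u
  simp only [Function.comp, n.symm_apply_apply]

theorem scale_eq {s : ℝ≥0} (hs : 0 < s) {p : ℝ} (hp : 0 < p) (C E : ℝ≥0∞) :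
    ((s⁻¹ : ℝ≥0) : ℝ≥0∞) ^ p * (s : ℝ≥0∞) ^ 3 *
      (C * ((s : ℝ≥0∞) ^ p * ((s⁻¹ : ℝ≥0) : ℝ≥0∞) ^ 2 * E)) = C * s * E := by
  have h1 : ((s⁻¹ : ℝ≥0) : ℝ≥0∞) * s = 1 := by
    rw [← ENNReal.coe_mul, inv_mul_cancel₀ hs.ne', ENNReal.coe_one]
  have h2 : ((s⁻¹ : ℝ≥0) : ℝ≥0∞) ^ p * (s : ℝ≥0∞) ^ p = 1 := by
    rw [← ENNReal.mul_rpow_of_nonneg _ _ hp.le, h1, ENNReal.one_rpow]
  calc _ = (((s⁻¹ : ℝ≥0) : ℝ≥0∞) ^ p * (s : ℝ≥0∞) ^ p) * (((s⁻¹ : ℝ≥0) : ℝ≥0∞) * s) ^ 2 *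
      (C * s * E) := by ring
    _ = _ := by rw [h1, h2, one_pow, one_mul, one_mul]

end P073.Rf

namespace P073.Top

open Rf

theorem csw : CSW := by
  intro Ω Λ Q g P _ hQ hc
  obtain ⟨Θ, a1, a2, a3⟩ := respeed Q {c | ∃ A : E3 →ᵃ[ℝ] E3, EqOn g.toFun A (Q.cell c)}
    (fun e => (P e).toContinuousAffineEquiv) g hQ hc fun i ⟨A, hA⟩ j hj => ⟨A, hA.mono hj⟩
  refine ⟨Θ, a1, fun c A hA => a2 c (Or.inl ⟨A, hA⟩), fun e x y he hs => ?_⟩
  obtain ⟨-, -, b1, b2⟩ := a3 e x y he hs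
  exact ⟨lipc_mul_le (b2 id), fun ℓ => b1 ℝ fun u => ℓ (g.toFun u)⟩

theorem refill {p : ℝ} (h1 : 1 ≤ p) (h3 : p < 3) : REFILL p := by
  obtain ⟨C, hC⟩ := refill1 h1 h3
  refine ⟨C 1, C, ?_⟩
  intro Ω Λ Q h nm M η κ x s η' G hΩ hQ hc hB hs hd hlf
  have hp : 0 < p := one_pos.trans_le h1
  lift s to κ → ℝ≥0 using fun k => (hs k).1.le
  have s0 : ∀ k, 0 < s k := fun k => NNReal.coe_pos.1 (hs k).1
  choose n n1 n2 n3 n4 using fun k => exists_norm (x k) (s0 k)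
  have hi : ∀ k, interior (closedBall (x k) (s k)) = ball (x k) (s k) :=
    fun k => interior_closedBall _ (hs k).1.ne'
  have hf : ∀ k, frontier (closedBall (x k) (s k)) = sphere (x k) (s k) :=
    fun k => frontier_closedBall _ (hs k).1.ne'
  have hw : ∀ k, (((s k)⁻¹ : ℝ≥0) : ℝ≥0∞) ^ p * (s k : ℝ≥0∞) ^ 3 ≠ ⊤ := fun k =>
    ENNReal.mul_ne_top (ENNReal.rpow_ne_top_of_nonneg hp.le ENNReal.coe_ne_top)
      (ENNReal.pow_ne_top ENNReal.coe_ne_top)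
  obtain ⟨h', a1, a2, a3, a4, a5, a6⟩ := hC Q
    {c | Q.dim c = 3 ∧ c ∉ G ∧ ∀ k, ¬ Q.cell c ⊆ closedBall (x k) (s k)} nm M η
    (fun k => closedBall (x k) (s k)) n (fun _ => 1)
    (fun k => η' k / ((((s k)⁻¹ : ℝ≥0) : ℝ≥0∞) ^ p * (s k : ℝ≥0∞) ^ 3)) h hΩ hQ hc
    (fun i hi => ⟨hi.1, (hB i hi.1).1, (hB i hi.1).2, hi.2.2⟩)
    (fun k => ⟨(hs k).2.2, by rw [hf, n1, n2]; exact chart_cube,
      ENNReal.div_pos (hs k).2.1.ne' (hw k)⟩)
    (fun k l hkl => (hd k l hkl).mono_left interior_subset) hlf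
  refine ⟨h', fun u hu hk => a1 u (hc ▸ Q.skel_subset_carrier 2 hu) (fun i hi' hui => ?_)
    fun k => hi k ▸ hk k, fun k => ⟨(a4 k).1, ?_⟩, fun c hc3 hk => ?_⟩
  · have := (Q.mem_skel_iff_dim hui).1 hu
    have := hi'.1
    omega
  · refine (en_aff hp (n k) (n3 k) (n4 k) (isCompact_closedBall _ _) _).1.trans
      ((mul_le_mul_right (a6 k) _).trans ?_)
    rw [mul_add, hf]
    refine add_le_add ((mul_le_mul_right (mul_le_mul_right
      (en_aff hp (n k) (n3 k) (n4 k) (isCompact_sphere _ _) _).2 _) _).trans ?_)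
      ENNReal.mul_div_le
    rw [scale_eq (s0 k) hp, ENNReal.ofReal_coe_nnreal]
  · have hk' : ∀ k, Disjoint (Q.ocell c) (interior (closedBall (x k) (s k))) := fun k =>
      (((hs k).2.2.subset_or_disjoint c).resolve_left (hk k)).mono_right interior_subset
    exact ⟨a3 c hk', fun hg => a2 c (fun h => h.2.1 hg) hk', fun hg => a5 c ⟨hc3, hg, hk⟩⟩

end P073.Top
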