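import Vale.Agent.P073Z.RCX2

/-!
# Gluing of a locally finite family of homeomorphisms with disjoint supports
-/

open Set Metric Topology Filter

namespace P073.Rf

variable {E : Type} [NormedAddCommGroup E] [NormedSpace ℝ E]

/-- homeomorphisms of closed polyhedra with disjoint interiors which fix the frontiers -/
theorem glue {ι : Type} {Ω : Set E} {W : ι → Set E} (Θ : ∀ i, ConHomeo (W i) (W i))
    (hΩ : IsOpen Ω) (hW : ∀ i, W i ⊆ Ω ∧ IsClosed (W i) ∧ LocCone (W i)) (hlf : LFIn W Ω)
    (hd : ∀ i j, i ≠ j → Disjoint (interior (W i)) (W j))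
    (hΘ : ∀ i, EqOn (Θ i).toFun id (frontier (W i))) :
    ∃ Φ : ConHomeo Ω Ω, (∀ i, EqOn Φ.toFun (Θ i).toFun (W i)) ∧
      ∀ x ∈ Ω, (∀ i, x ∉ interior (W i)) → Φ.toFun x = x := by
  have hfix : ∀ i, ∀ x ∈ W i, x ∉ interior (W i) → (Θ i).toFun x = x := fun i x hx hx' =>
    hΘ i ⟨subset_closure hx, hx'⟩
  have hc : ConicalSet (Ω \ ⋃ i, interior (W i)) := fun x hx =>
    ((locConeAt_of_mem_nhds (hΩ.mem_nhds hx.1)).inter (LFIn.locConeAt_of_cover (V := Ω)
      (X := fun i => interior (W i)) (fun y hy => let ⟨U, hU, hf⟩ := hlf y hy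
        ⟨U, hU, hf.subset fun i hi => hi.mono (inter_subset_inter_left _ interior_subset)⟩)
      (fun i => (hW i).2.2.interior)
      (fun y hy => let ⟨i, hi⟩ := mem_iUnion.1 hy
        ⟨i, hi, subset_iUnion (fun i => interior (W i)) i⟩) hx.1).compl).conicalSetAt hx
  let X : Option ι → Set E := fun o => o.elim (Ω \ ⋃ i, interior (W i)) W
  have hU : (⋃ o, X o) = Ω := by
    rw [iUnion_option]
    refine Subset.antisymm (union_subset sdiff_subset (iUnion_subset fun i => (hW i).1))
      fun x hx => ?_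
    by_cases h : x ∈ ⋃ i, interior (W i)
    · exact Or.inr (iUnion_mono (fun i => interior_subset) h)
    · exact Or.inl ⟨hx, h⟩
  have hL : RelLF X := by
    refine ⟨fun z hz => ?_, fun o z hz hzo => ?_⟩
    · obtain ⟨U, hU', hf⟩ := hlf z (hU ▸ hz)
      refine ⟨U, hU', ((hf.image some).insert none).subset fun o ho => ?_⟩
      cases o with
      | none => exact Or.inl rfl
      | some i => exact Or.inr ⟨i, ho, rfl⟩
    · cases o with
      | none => exact ⟨hU ▸ hz, (isOpen_iUnion fun i => isOpen_interior).isClosed_compl.closure_subset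
          (closure_mono (sdiff_subset_compl _ _) hzo)⟩
      | some i => exact (hW i).2.1.closure_subset hzo
  let h : ∀ o, ConHomeo (X o) (X o) := fun o => match o with
    | none => .refl hc
    | some i => Θ i
  have key : ∀ o o', o ≠ o' → ∀ x ∈ X o ∩ X o', (h o).toFun x = x := fun o o' hne x hx =>
    match o, o', hne, hx with
    | none, _, _, _ => rfl
    | some i, none, _, hx => hfix i x hx.1 fun hi => hx.2.2 (mem_iUnion.2 ⟨i, hi⟩)
    | some i, some j, hne, hx => hfix i x hx.1 fun hi =>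
      disjoint_left.1 (hd i j fun e => hne (congrArg some e)) hi hx.2
  obtain ⟨Φ, hΦ⟩ := ConHomeo.exists_glue_family hL hL h
    (fun o o' x hx => by
      by_cases e : o = o'
      · subst e; rfl
      · rw [key o o' e x hx, key o' o (Ne.symm e) x hx.symm])
    (fun o o' y hy => by
      by_cases e : o = o'
      · subst e
        exact ⟨_, ⟨(h o).mapsTo_inv hy.1, (h o).mapsTo_inv hy.1⟩, (h o).right_inv hy.1⟩
      · exact ⟨y, hy, key o o' e y hy⟩)
  exact ⟨Φ.cast hU hU, fun i => (hΦ (some i)).1,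
    fun x hx hn => (hΦ none).1 ⟨hx, fun h => let ⟨i, hi⟩ := mem_iUnion.1 h; hn i hi⟩⟩

end P073.Rf
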