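import Vale.Agent.P073Y.Rf.Respeed

/-!
# Segments which are subcomplexes
-/

open Set Metric Topology Filter MeasureTheory AffineMap
open scoped ENNReal NNReal

namespace P073.Rf

variable {Q : RCx E3}

theorem image_lineMap (x y : E3) {s t : ℝ} (h : s ≤ t) :
    segment ℝ (lineMap x y s) (lineMap x y t) = lineMap x y '' Icc s t := by
  rw [← segment_eq_Icc h, image_segment]

theorem dim_le_one (hQ : Q.Cvx) {i : Q.ι} {x y : E3} (h : Q.cell i ⊆ segment ℝ x y) :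
    Q.dim i ≤ 1 := by
  rw [(hQ i).2.2]
  exact collinear_iff_finrank_le_one.1 ((SF.Tn.collinear_segment x y).subset h)

/-- the first wire of a segment which is a subcomplex -/
theorem first_wire (hQ : Q.Cvx) {x y : E3} (hxy : x ≠ y) (hs : Q.Sub (segment ℝ x y)) :
    ∃ e c, Q.dim e = 1 ∧ Q.cell e = segment ℝ x c ∧ c ∈ segment ℝ x y ∧ x ∉ segment ℝ c y ∧
      Q.Sub (segment ℝ c y) := by
  have inj := lineMap_injective ℝ hxy
  have e1 : segment ℝ x y = lineMap x y '' Icc (0 : ℝ) 1 := segment_eq_image_lineMap ℝ x y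
  have h0 : lineMap x y (0 : ℝ) = x := lineMap_apply_zero x y
  have h1 : lineMap x y (1 : ℝ) = y := lineMap_apply_one x y
  have hc : Continuous (lineMap x y : ℝ → E3) := lineMap_continuous
  have ev : ∀ᶠ s in 𝓝[>] (0 : ℝ), (∀ i, lineMap x y s ∈ Q.cell i → x ∈ Q.cell i) ∧ s ∈ Ioo 0 1 := by
    refine Eventually.and (nhdsWithin_le_nhds ?_) (Ioo_mem_nhdsGT one_pos)
    exact hc.continuousAt.eventually (p := fun z => ∀ i, z ∈ Q.cell i → x ∈ Q.cell i)
      (h0.symm ▸ Q.eventually_star (hs.subset_carrier (left_mem_segment ℝ x y)))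
  obtain ⟨s, s1, s2⟩ := ev.exists
  obtain ⟨j, j1, j2⟩ := hs _ (e1 ▸ mem_image_of_mem _ (Ioo_subset_Icc_self s2))
  have hT : lineMap x y ⁻¹' Q.cell j ⊆ Icc (0 : ℝ) 1 := fun t ht => by
    obtain ⟨u, hu, he⟩ := e1 ▸ j2 ht
    exact inj he ▸ hu
  have m0 : (0 : ℝ) ∈ lineMap x y ⁻¹' Q.cell j := by
    rw [mem_preimage, h0]
    exact s1 j j1
  obtain ⟨a, b, hab⟩ : ∃ a b, lineMap x y ⁻¹' Q.cell j = Icc a b :=
    ⟨_, _, eq_Icc_of_connected_compact (((hQ j).1.affine_preimage _).isConnected ⟨0, m0⟩)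
      (isCompact_Icc.of_isClosed_subset ((Q.isClosed_cell j).preimage hc) hT)⟩
  have ms : s ∈ Icc a b := hab ▸ j1
  rw [hab] at hT m0
  obtain rfl : a = 0 := le_antisymm m0.1 (hT (left_mem_Icc.2 (m0.1.trans m0.2))).1
  have b0 : 0 < b := s2.1.trans_le ms.2
  have b1 : b ≤ 1 := (hT (right_mem_Icc.2 b0.le)).2
  have e2 : Q.cell j = segment ℝ x (lineMap x y b) := by
    have h := image_lineMap x y b0.le
    rw [h0] at h
    rw [h, ← hab, image_preimage_eq_of_subset (j2.trans (e1 ▸ image_subset_range _ _))]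
  have e3 : segment ℝ (lineMap x y b) y = lineMap x y '' Icc b 1 := by
    have h := image_lineMap x y b1
    rwa [h1] at h
  have hd : Q.dim j = 1 := by
    refine le_antisymm (dim_le_one hQ j2) (Nat.one_le_iff_ne_zero.2 fun h => ?_)
    obtain ⟨v, hv⟩ := Q.exists_vertex h
    have k1 : x ∈ Q.cell j := s1 j j1
    rw [hv] at k1 j1
    exact s2.1.ne (inj (h0.trans (k1.trans j1.symm)))
  have hb := (Inf.wire_of hQ hd e2).2.2.2
  refine ⟨j, _, hd, e2, e1 ▸ mem_image_of_mem _ ⟨b0.le, b1⟩, ?_, ?_⟩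
  · rw [e3]
    rintro ⟨t, ht, he⟩
    exact (b0.trans_le ht.1).ne' (inj (he.trans h0.symm))
  · rw [e3]
    rintro _ ⟨t, ht, rfl⟩
    obtain ⟨i, i1, i2⟩ := hs.exists_ocell (lineMap_mem_seg x y ⟨b0.le.trans ht.1, ht.2⟩)
    refine ⟨i, i1.1, fun w hw => ?_⟩
    obtain ⟨u, hu, rfl⟩ := e1 ▸ i2 hw
    refine mem_image_of_mem _ ⟨not_lt.1 fun hub => ?_, hu.2⟩
    have k1 : lineMap x y ((u + b) / 2) ∈ Q.cell i :=
      (hQ i).1.segment_subset hw i1.1 (image_lineMap x y (hub.le.trans ht.1) ▸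
        mem_image_of_mem _ ⟨by linarith, by linarith [ht.1]⟩)
    have k2 : lineMap x y ((u + b) / 2) ∈ Q.ocell j := by
      have k0 : (u + b) / 2 ∈ Icc 0 b := ⟨by linarith [hu.1], by linarith⟩
      refine ⟨show _ ∈ lineMap x y ⁻¹' Q.cell j from hab ▸ k0, ?_⟩
      rw [hb]
      rintro (h | h)
      · linarith [inj (h.trans h0.symm), hu.1]
      · linarith [inj h]
    obtain rfl := Q.eq_of_subset_of_dim_le (Q.cell_subset_of_mem k2 k1)
      ((dim_le_one hQ i2).trans hd.ge)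
    have k3 : t ∈ Icc 0 b := hab ▸ i1.1
    exact i1.2 (by rw [hb, le_antisymm k3.2 ht.1]; exact Or.inr rfl)

/-- induction along the wires of a segment -/
theorem seg_induction (hQ : Q.Cvx) {Pr : E3 → E3 → Prop} (h0 : ∀ x, Pr x x)
    (h1 : ∀ e x c y, Q.dim e = 1 → Q.cell e = segment ℝ x c → c ∈ segment ℝ x y →
      x ∉ segment ℝ c y → Q.Sub (segment ℝ c y) → Pr c y → Pr x y)
    {x y : E3} (hs : Q.Sub (segment ℝ x y)) : Pr x y := by
  generalize hn : {i | Q.cell i ⊆ segment ℝ x y}.ncard = n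
  induction n using Nat.strong_induction_on generalizing x with
  | _ n ih =>
    rcases eq_or_ne x y with rfl | hxy
    · exact h0 x
    obtain ⟨e, c, a1, a2, a3, a4, a5⟩ := first_wire hQ hxy hs
    refine h1 e x c y a1 a2 a3 a4 a5 (ih _ (hn ▸ ncard_lt_ncard ⟨fun i hi => hi.trans
      ((convex_segment x y).segment_subset a3 (right_mem_segment ℝ x y)), fun h => a4 ?_⟩
      (Q.finite_subset (Sq.isCompact_segment x y) hs.subset_carrier)) a5 rfl)
    exact h (show Q.cell e ⊆ _ from a2 ▸ (convex_segment x y).segment_subset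
      (left_mem_segment ℝ x y) a3) (a2 ▸ left_mem_segment ℝ x c)

/-- summation of estimates on the wires of a segment -/
theorem le_sum_wires (hQ : Q.Cvx) {Φ Ψ : E3 → E3 → ℝ≥0∞} {η : Q.ι → ℝ≥0∞} (h0 : ∀ x, Φ x x = 0)
    (hΦ : ∀ x y, ∀ c ∈ segment ℝ x y, Φ x y ≤ Φ x c + Φ c y)
    (hΨ : ∀ x y, ∀ c ∈ segment ℝ x y, Ψ x c + Ψ c y ≤ Ψ x y) {x y : E3}
    (hs : Q.Sub (segment ℝ x y))
    (h : ∀ e a b, Q.dim e = 1 → Q.cell e = segment ℝ a b → Q.cell e ⊆ segment ℝ x y →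
      Φ a b ≤ Ψ a b + η e) :
    Φ x y ≤ Ψ x y + ∑' e, {e | Q.dim e = 1 ∧ Q.cell e ⊆ segment ℝ x y}.indicator η e := by
  revert h
  refine seg_induction hQ (Pr := fun x y => (∀ e a b, Q.dim e = 1 → Q.cell e = segment ℝ a b →
    Q.cell e ⊆ segment ℝ x y → Φ a b ≤ Ψ a b + η e) → Φ x y ≤ Ψ x y +
      ∑' e, {e | Q.dim e = 1 ∧ Q.cell e ⊆ segment ℝ x y}.indicator η e)
    (fun x _ => h0 x ▸ zero_le) (fun e x c y a1 a2 a3 a4 _ ih h => ?_) hs
  have s1 := (convex_segment x y).segment_subset (left_mem_segment ℝ x y) a3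
  have s2 := (convex_segment x y).segment_subset a3 (right_mem_segment ℝ x y)
  have k : η e + ∑' e, {e | Q.dim e = 1 ∧ Q.cell e ⊆ segment ℝ c y}.indicator η e ≤
      ∑' e, {e | Q.dim e = 1 ∧ Q.cell e ⊆ segment ℝ x y}.indicator η e := by
    have k1 : η e = ∑' j, ({e} : Set Q.ι).indicator η j := by
      rw [tsum_eq_single e fun j hj => indicator_of_notMem (s := {e}) hj η,
        indicator_of_mem (mem_singleton e)]
    have k2 : Disjoint {e} {e | Q.dim e = 1 ∧ Q.cell e ⊆ segment ℝ c y} :=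
      disjoint_singleton_left.2 fun h => a4 (h.2 (a2 ▸ left_mem_segment ℝ x c))
    rw [k1, ← ENNReal.tsum_add]
    refine ENNReal.tsum_le_tsum fun j => ?_
    refine (congrFun (indicator_union_of_disjoint k2 η) j).ge.trans
      (indicator_le_indicator_apply_of_subset ?_ zero_le)
    rintro i (rfl | hi)
    exacts [⟨a1, a2 ▸ s1⟩, ⟨hi.1, hi.2.trans s2⟩]
  refine (hΦ x y c a3).trans ((add_le_add (h e x c a1 a2 (a2 ▸ s1))
    (ih fun e a b b1 b2 b3 => h e a b b1 b2 (b3.trans s2))).trans ?_)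
  rw [add_add_add_comm]
  exact add_le_add (hΨ x y c a3) k

/-- the variation along a subdivided wire -/
theorem segVar_le_sum {T T' : Type} [PseudoEMetricSpace T] [PseudoEMetricSpace T'] (hQ : Q.Cvx)
    {g : E3 → T} {f : E3 → T'} {K : ℝ≥0∞} {η : Q.ι → ℝ≥0∞} {x y : E3}
    (hs : Q.Sub (segment ℝ x y))
    (h : ∀ e a b, Q.dim e = 1 → Q.cell e = segment ℝ a b → Q.cell e ⊆ segment ℝ x y →
      segVar g a b ≤ K * segVar f a b + η e) :
    segVar g x y ≤ K * segVar f x y +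
      ∑' e, {e | Q.dim e = 1 ∧ Q.cell e ⊆ segment ℝ x y}.indicator η e :=
  le_sum_wires hQ (Ψ := fun a b => K * segVar f a b) (segVar_self g)
    (fun _ _ _ hc => (SF.Tn.segVar_split g hc).le)
    (fun _ _ _ hc => by rw [SF.Tn.segVar_split f hc, mul_add]) hs h

end P073.Rf
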