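import Vale.Agent.P073Y.Rf.Glue
import Vale.Agent.P073Y.An2.Cone3
import Vale.Agent.P073Z.TOPO.Fill
import Vale.Agent.P073Z.MAN

/-!
# Refilling of a locally finite family of balls
-/

open Set Metric Topology Filter MeasureTheory
open scoped ENNReal NNReal

namespace P073.Rf

/-- the refilling of one ball in normalised coordinates -/
theorem one {p : ℝ} {C M : ℝ≥0}
    (hC : ∀ {D B : Set E3} {h : E3 → E3} {η : ℝ≥0∞}, BiChart 3 D B M → PLOn h D → 0 < η →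
      ∃ Θ : ConHomeo D D, EqOn Θ.toFun id B ∧ En 3 p (h ∘ Θ.toFun) D ≤ C * En 2 p h B + η)
    {T B : Set E3} {n : E3 ≃ᴬ[ℝ] E3} {h : E3 → E3} {η : ℝ≥0∞}
    (hB : BiChart 3 (n '' T) (n '' B) M) (hh : PLOn h T) (hη : 0 < η) :
    ∃ Θ : ConHomeo T T, EqOn Θ.toFun id B ∧
      En 3 p ((h ∘ Θ.toFun) ∘ n.symm) (n '' T) ≤ C * En 2 p (h ∘ n.symm) (n '' B) + η := by
  let ν := ConHomeo.ofAffine n hh.2.conicalSet
  obtain ⟨Θ, t1, t2⟩ := hC (h := h ∘ n.symm) hB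
    ⟨hh.1.comp ν.symm.cont ν.symm.mapsTo, hh.2.comp ν.symm.conical ν.symm.mapsTo ν.symm.cont⟩ hη
  refine ⟨ν.trans (Θ.trans ν.symm), fun x hx => ?_, le_of_eq_of_le ?_ t2⟩
  · show n.symm (Θ.toFun (n x)) = _
    rw [t1 (mem_image_of_mem n hx), id, n.symm_apply_apply, id]
  · congr 1
    funext x
    show h (n.symm (Θ.toFun (n (n.symm x)))) = _
    rw [n.apply_symm_apply]
    rfl

theorem ball_of_chart {T B : Set E3} {n : E3 ≃ᴬ[ℝ] E3} {k : ℕ} {M : ℝ≥0}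
    (hB : BiChart k (n '' T) (n '' B) M) : ConBall k T B := by
  obtain ⟨h1, φ, h2, -⟩ := hB
  have h3 : ConBall k (n '' T) (n '' B) := ⟨h1, φ, h2⟩
  have h4 := h3.image (ConHomeo.ofAffine n.symm h3.conicalSet) Subset.rfl
  have e : ∀ X : Set E3, (ConHomeo.ofAffine n.symm h3.conicalSet).toFun '' (n '' X) = X :=
    fun X => n.toEquiv.symm_image_image X
  rwa [e, e] at h4

/-- the refilling of a locally finite family of balls with disjoint interiors -/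
def REFILL0 : Prop := ∀ {p : ℝ}, 1 ≤ p → p < 3 → ∃ C : ℝ≥0 → ℝ≥0,
  ∀ {ι : Type} {Ω : Set E3} (T : ι → Set E3) (n : ι → E3 ≃ᴬ[ℝ] E3) (M : ι → ℝ≥0)
    (η : ι → ℝ≥0∞) {h : E3 → E3}, IsOpen Ω → PLOn h Ω → LFIn T Ω →
  (∀ i, T i ⊆ Ω ∧ BiChart 3 (n i '' T i) (n i '' frontier (T i)) (M i) ∧ 0 < η i) →
  (∀ i j, i ≠ j → Disjoint (interior (T i)) (T j)) →
  ∃ Θ : ConHomeo Ω Ω, (∀ x ∈ Ω, (∀ i, x ∉ interior (T i)) → Θ.toFun x = x) ∧
    ∀ i, Θ.toFun '' T i = T i ∧ En 3 p ((h ∘ Θ.toFun) ∘ (n i).symm) (n i '' T i) ≤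
      C (M i) * En 2 p (h ∘ (n i).symm) (n i '' frontier (T i)) + η i

theorem refill0 : REFILL0 := by
  intro p h1 h3
  choose C hC using An2.cone3p h1 h3
  refine ⟨C, fun T n M η h hΩ hh hlf hT hd => ?_⟩
  have hb := fun i => ball_of_chart (hT i).2.1
  choose θ t1 t2 using fun i => one (hC (M i)) (hT i).2.1
    ⟨hh.1.mono (hT i).1, hh.2.mono (hb i).conicalSet (hT i).1⟩ (hT i).2.2
  obtain ⟨Θ, a1, a2⟩ := glue θ hΩ (fun i => ⟨(hT i).1, (hb i).isClosed, (hb i).locCone⟩) hlf hd t1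
  refine ⟨Θ, a2, fun i => ⟨(a1 i).image_eq.trans (θ i).image_eq, le_of_eq_of_le ?_ (t2 i)⟩⟩
  exact Fill.en_congr_img (hb i).isCompact (n i) fun x hx => congrArg h (a1 i hx)

/-- the refilling of the cells in `𝓒` and of the free balls `P k` -/
def REFILL1 : Prop := ∀ {p : ℝ}, 1 ≤ p → p < 3 → ∃ C : ℝ≥0 → ℝ≥0,
  ∀ {κ : Type} {Ω Λ : Set E3} (Q : RCx E3) (𝓒 : Set Q.ι) (n : Q.ι → E3 ≃ᴬ[ℝ] E3)
    (M : Q.ι → ℝ≥0) (η : Q.ι → ℝ≥0∞) (P : κ → Set E3) (n' : κ → E3 ≃ᴬ[ℝ] E3) (M' : κ → ℝ≥0)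
    (η' : κ → ℝ≥0∞) (h : ConHomeo Ω Λ), IsOpen Ω → Q.Cvx → Q.carrier = Ω →
  (∀ i ∈ 𝓒, Q.dim i = 3 ∧ BiChart 3 (n i '' Q.cell i) (n i '' Q.bd i) (M i) ∧ 0 < η i ∧
    ∀ k, ¬ Q.cell i ⊆ P k) →
  (∀ k, Q.Sub (P k) ∧ BiChart 3 (n' k '' P k) (n' k '' frontier (P k)) (M' k) ∧ 0 < η' k) →
  (∀ k l, k ≠ l → Disjoint (interior (P k)) (P l)) → LFIn P Ω →
  ∃ h' : ConHomeo Ω Λ,
    (∀ x ∈ Ω, (∀ i ∈ 𝓒, x ∉ Q.ocell i) → (∀ k, x ∉ interior (P k)) → h'.toFun x = h.toFun x) ∧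
    (∀ i, i ∉ 𝓒 → (∀ k, Disjoint (Q.ocell i) (interior (P k))) →
      EqOn h'.toFun h.toFun (Q.cell i)) ∧
    (∀ i, (∀ k, Disjoint (Q.ocell i) (interior (P k))) →
      h'.toFun '' Q.cell i = h.toFun '' Q.cell i) ∧
    (∀ k, h'.toFun '' P k = h.toFun '' P k ∧ EqOn h'.toFun h.toFun (frontier (P k))) ∧
    (∀ i ∈ 𝓒, En 3 p (h'.toFun ∘ (n i).symm) (n i '' Q.cell i) ≤
      C (M i) * En 2 p (h.toFun ∘ (n i).symm) (n i '' Q.bd i) + η i) ∧
    ∀ k, En 3 p (h'.toFun ∘ (n' k).symm) (n' k '' P k) ≤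
      C (M' k) * En 2 p (h.toFun ∘ (n' k).symm) (n' k '' frontier (P k)) + η' k

theorem interior_cell {Q : RCx E3} (hQ : Q.Cvx) {i : Q.ι} (hi : Q.dim i = 3) :
    interior (Q.cell i) = Q.ocell i := by
  rw [RCx.ocell, TP.bd_eq_frontier hQ hi, self_sdiff_frontier]

/-- a cell whose open part misses an open set misses it -/
theorem disjoint_cell {Q : RCx E3} {i : Q.ι} {U : Set E3} (hU : IsOpen U)
    (h : Disjoint (Q.ocell i) U) : Disjoint (Q.cell i) U :=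
  (h.closure_left hU).mono_left (Q.ball i).subset_closure_int

theorem refill1 : REFILL1 := by
  intro p h1 h3
  obtain ⟨C, hC⟩ := refill0 h1 h3
  refine ⟨C, ?_⟩
  intro κ Ω Λ Q 𝓒 n M η P n' M' η' h hΩ hQ hcar hc hP hd hlf
  subst hcar
  have hcP : ∀ i ∈ 𝓒, ∀ k, Disjoint (Q.ocell i) (P k) := fun i hi k =>
    ((hP k).1.subset_or_disjoint i).resolve_left ((hc i hi).2.2.2 k)
  obtain ⟨Θ, a1, a2⟩ := hC (ι := 𝓒 ⊕ κ) (Sum.elim (fun i => Q.cell i) P)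
    (Sum.elim (fun i => n i) n') (Sum.elim (fun i => M i) M') (Sum.elim (fun i => η i) η')
    hΩ ⟨h.cont, h.conical⟩
    (fun x hx => by
      obtain ⟨U, hU, f1⟩ := Q.lf x hx
      obtain ⟨V, hV, f2⟩ := hlf x hx
      refine ⟨U ∩ V, inter_mem hU hV, (((f1.preimage Subtype.val_injective.injOn).image
        Sum.inl).union (f2.image Sum.inr)).subset ?_⟩
      rintro (i | k) hi
      · exact Or.inl ⟨i, hi.mono (inter_subset_inter_right _ inter_subset_left), rfl⟩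
      · exact Or.inr ⟨k, hi.mono (inter_subset_inter_right _ inter_subset_right), rfl⟩)
    (by
      rintro (i | k)
      · exact ⟨Q.cell_subset_carrier i, TP.bd_eq_frontier hQ (hc i i.2).1 ▸ (hc i i.2).2.1,
          (hc i i.2).2.2.1⟩
      · exact ⟨(hP k).1.subset_carrier, (hP k).2⟩)
    (by
      rintro (i | k) (j | l) hne
      · show Disjoint (interior (Q.cell i)) (Q.cell j)
        rw [interior_cell hQ (hc i i.2).1]
        exact (Fill.tiles hQ (hc i i.2).1 (hc j j.2).1 fun e =>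
          hne (congrArg Sum.inl (Subtype.ext e))).1
      · show Disjoint (interior (Q.cell i)) (P l)
        rw [interior_cell hQ (hc i i.2).1]
        exact hcP i i.2 l
      · exact (disjoint_cell isOpen_interior ((hcP j j.2 k).mono_right interior_subset)).symm
      · exact hd k l fun e => hne (congrArg Sum.inr e))
  have key : ∀ i, i ∉ 𝓒 → (∀ k, Disjoint (Q.ocell i) (interior (P k))) →
      EqOn (Θ.trans h).toFun h.toFun (Q.cell i) := fun i hi hk x hx => by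
    refine congrArg h.toFun (a1 x (Q.cell_subset_carrier i hx) ?_)
    rintro (j | k) hj
    · have hj' : x ∈ interior (Q.cell j) := hj
      rw [interior_cell hQ (hc j j.2).1] at hj'
      have := Q.eq_of_subset_of_dim_le (Q.cell_subset_of_mem hj' hx)
        ((TP.dim_le_three hQ i).trans (hc j j.2).1.ge)
      exact hi (this ▸ j.2)
    · exact disjoint_left.1 (disjoint_cell isOpen_interior (hk k)) hx hj
  have img : ∀ X : Set E3, Θ.toFun '' X = X → (Θ.trans h).toFun '' X = h.toFun '' X :=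
    fun X hX => by rw [ConHomeo.trans_toFun, image_comp, hX]
  refine ⟨Θ.trans h, fun x hx k1 k2 => congrArg h.toFun (a1 x hx ?_), key, fun i hk => ?_,
    fun k => ⟨img _ (a2 (Sum.inr k)).1, fun x hx => ?_⟩,
    fun i hi => ?_, fun k => (a2 (Sum.inr k)).2⟩
  · rintro (j | k) hj
    · exact k1 j j.2 (interior_cell hQ (hc j j.2).1 ▸ hj)
    · exact k2 k hj
  · by_cases hi : i ∈ 𝓒
    · exact img _ (a2 (Sum.inl ⟨i, hi⟩)).1
    · exact (key i hi hk).image_eq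
  · have hx' : x ∈ P k := (ball_of_chart (hP k).2.1).1 hx
    refine congrArg h.toFun (a1 x ((hP k).1.subset_carrier hx') ?_)
    rintro (j | l) hj
    · have hj' : x ∈ interior (Q.cell j) := hj
      rw [interior_cell hQ (hc j j.2).1] at hj'
      exact disjoint_left.1 (hcP j j.2 k) hj' hx'
    · by_cases e : l = k
      · exact hx.2 (e ▸ hj)
      · exact disjoint_left.1 (hd l k e) hj hx'
  · rw [TP.bd_eq_frontier hQ (hc i hi).1]
    exact (a2 (Sum.inl ⟨i, hi⟩)).2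

end P073.Rf
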