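import Vale.Agent.P073Y.Rf.Topo1
import Vale.Agent.P073Z.SURF.Tent

/-!
# Reparametrisation to constant speed on the wires
-/

open Set Metric Topology Filter MeasureTheory
open scoped ENNReal NNReal

namespace P073.Rf

/-- the length of the image is at most the variation -/
theorem hm_le_segVar (k : E3 → E3) (x y : E3) : μH[1] (k '' segment ℝ x y) ≤ segVar k x y := by
  rcases eq_or_ne (segVar k x y) ⊤ with h | h
  · exact h ▸ le_top
  set c : ℝ → E3 := fun s => k (AffineMap.lineMap x y s) with hc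
  have hb : BoundedVariationOn c (Icc 0 1) := h
  have m0 : (0 : ℝ) ∈ Icc (0 : ℝ) 1 := left_mem_Icc.2 zero_le_one
  have m1 : (1 : ℝ) ∈ Icc (0 : ℝ) 1 := right_mem_Icc.2 zero_le_one
  have hl := hb.locallyBoundedVariationOn
  have h1 := Sq.hm_le_of_mono (f := c) (m := variationOnFromTo c (Icc 0 1) 0) (a := 0) (b := 1)
    fun s hs t ht hst => by
      have h2 := variationOnFromTo.add hl m0 hs ht
      have h3 : dist (c s) (c t) ≤ variationOnFromTo c (Icc 0 1) s t := by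
        rw [variationOnFromTo.eq_of_le _ _ hst, dist_edist]
        exact ENNReal.toReal_mono (hl s t hs ht)
          (eVariationOn.edist_le c ⟨hs, le_rfl, hst⟩ ⟨ht, hst, le_rfl⟩)
      linarith
  rw [variationOnFromTo.self, sub_zero, variationOnFromTo.eq_of_le _ _ zero_le_one, inter_self,
    ENNReal.ofReal_toReal hb] at h1
  rwa [segment_eq_image_lineMap, image_image]

/-- the variation does not depend on the parametrisation -/
theorem segVar_comp {T : Type} [PseudoEMetricSpace T] (k : E3 → T) {x y : E3} (hxy : x ≠ y)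
    (θ : ConHomeo (segment ℝ x y) (segment ℝ x y)) (hx : θ.toFun x = x) (hy : θ.toFun y = y) :
    segVar (k ∘ θ.toFun) x y = segVar k x y := by
  obtain ⟨ψ, hψ⟩ := Sq.exists_line hxy
  have m0 : (0 : ℝ) ∈ Icc (0 : ℝ) 1 := left_mem_Icc.2 zero_le_one
  have m1 : (1 : ℝ) ∈ Icc (0 : ℝ) 1 := right_mem_Icc.2 zero_le_one
  let τ := ψ.trans (θ.trans ψ.symm)
  have e : ∀ s ∈ Icc (0 : ℝ) 1, AffineMap.lineMap x y (τ.toFun s) =
      θ.toFun (AffineMap.lineMap x y s) := fun s hs => by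
    rw [← hψ]
    exact ψ.right_inv (θ.mapsTo (ψ.mapsTo hs))
  have t0 : τ.toFun 0 = 0 := AffineMap.lineMap_injective ℝ hxy (by
    rw [e 0 m0, AffineMap.lineMap_apply_zero, hx])
  have t1 : τ.toFun 1 = 1 := AffineMap.lineMap_injective ℝ hxy (by
    rw [e 1 m1, AffineMap.lineMap_apply_one, hy])
  have hm : StrictMonoOn τ.toFun (Icc 0 1) :=
    τ.cont.strictMonoOn_of_injOn_Icc zero_le_one (by rw [t0, t1]; exact zero_le_one) τ.injOn
  have h := eVariationOn.comp_eq_of_monotoneOn (fun s : ℝ => k (AffineMap.lineMap x y s))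
    τ.toFun hm.monotoneOn
  rw [τ.image_eq] at h
  exact (eVariationOn.eq_of_eqOn fun s hs => congrArg k (e s hs).symm).trans h

/-- reparametrisation of one segment -/
theorem exists_speed {x y : E3} {Y : Set E3} (hxy : x ≠ y) (k : ConHomeo (segment ℝ x y) Y) :
    ∃ θ : ConHomeo (segment ℝ x y) (segment ℝ x y), θ.toFun x = x ∧ θ.toFun y = y ∧
      ∀ u ∈ segment ℝ x y, ∀ w ∈ segment ℝ x y,
        edist (k.toFun (θ.toFun u)) (k.toFun (θ.toFun w)) * edist x y ≤
          segVar k.toFun x y * edist u w := by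
  obtain ⟨ψ, hψ⟩ := Sq.exists_line hxy
  have hA : IsArc Y (k.toFun x) (k.toFun y) := ⟨ψ.trans k, by simp [hψ], by simp [hψ]⟩
  obtain ⟨φ, f1, f2, f3, -⟩ := csp hA hxy
  have e : ∀ u ∈ segment ℝ x y, k.toFun ((φ.trans k.symm).toFun u) = φ.toFun u :=
    fun u hu => k.right_inv (φ.mapsTo hu)
  refine ⟨φ.trans k.symm, ?_, ?_, fun u hu w hw => ?_⟩
  · exact (congrArg k.invFun f1).trans (k.left_inv (left_mem_segment ℝ x y))
  · exact (congrArg k.invFun f2).trans (k.left_inv (right_mem_segment ℝ x y))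
  · rw [e u hu, e w hw]
    refine (f3 u hu w hw).trans (mul_le_mul_left ?_ _)
    have h := hm_le_segVar k.toFun x y
    rwa [k.image_eq] at h

/-- affine maps have constant speed -/
theorem speed_of_affine {k : E3 → E3} (A : E3 →ᵃ[ℝ] E3) {x y : E3}
    (h : EqOn k A (segment ℝ x y)) {u w : E3} (hu : u ∈ segment ℝ x y) (hw : w ∈ segment ℝ x y) :
    edist (k u) (k w) * edist x y ≤ segVar k x y * edist u w := by
  have h1 := edist_le_segVar k (left_mem_segment ℝ x y) (right_mem_segment ℝ x y)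
  refine le_trans (le_of_eq ?_) (mul_le_mul_left h1 _)
  rw [h hu, h hw, h (left_mem_segment ℝ x y), h (right_mem_segment ℝ x y)]
  rw [segment_eq_image_lineMap] at hu hw
  obtain ⟨s, -, rfl⟩ := hu
  obtain ⟨t, -, rfl⟩ := hw
  simp only [AffineMap.apply_lineMap, edist_nndist, nndist_lineMap_lineMap, ENNReal.coe_mul]
  ring

/-- extension of homeomorphisms of the wires, relative to the kept cells -/
theorem even {Q : RCx E3} (hd : ∀ i, Q.dim i ≤ 3) {G : Set Q.ι}
    (hf : ∀ c ∈ G, ∀ j, Q.cell j ⊆ Q.cell c → j ∈ G) (θ : Q.ι → E3 → E3)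
    (hθ : ∀ e, Q.dim e = 1 → (∃ Φ : ConHomeo (Q.cell e) (Q.cell e),
      EqOn Φ.toFun (θ e) (Q.cell e)) ∧ EqOn (θ e) id (Q.bd e) ∧
      (e ∈ G → EqOn (θ e) id (Q.cell e))) :
    ∃ Θ : ConHomeo Q.carrier Q.carrier, (∀ c ∈ G, EqOn Θ.toFun id (Q.cell c)) ∧
      (∀ c, Θ.toFun '' Q.cell c = Q.cell c) ∧
      ∀ e, Q.dim e = 1 → EqOn Θ.toFun (θ e) (Q.cell e) := by
  classical
  have hP : Q.FaceClosed fun c => Q.dim c ≤ 1 ∨ c ∈ G :=
    (Q.faceClosed_dim 1).or fun i j hi hj => hf i hi j hj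
  have hid : ∀ c ∈ G, EqOn (if Q.dim c = 1 then θ c else id) id (Q.cell c) := fun c hc => by
    split_ifs with h
    exacts [(hθ c h).2.2 hc, fun _ _ => rfl]
  obtain ⟨ψ, hψ⟩ := (Q.realiz_cell 3).exists_glue (Q.realiz_cell 3) hP
    (fun c _ => hd c) (fun c => if Q.dim c = 1 then θ c else id)
    (fun c _ => by
      split_ifs with h
      exacts [(hθ c h).1, ⟨.refl (Q.ball c).conicalSet, fun _ _ => rfl⟩])
    (fun i j hi hj => by
      rcases Q.eq_or_subset_bd hj with rfl | hb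
      · exact fun _ _ => rfl
      rcases hi with hi | hi
      · have h1 := Q.dim_lt hb
        rw [if_pos (show Q.dim i = 1 by omega), if_neg (show Q.dim j ≠ 1 by omega)]
        exact (hθ i (by omega)).2.1.mono hb
      · exact fun x hx => (hid i hi (hj hx)).trans (hid j (hf i hi j hj) hx).symm)
  obtain ⟨Φ, h1, h2⟩ := (Q.realiz_cell 3).exists_extend (Q.realiz_cell 3) hP
    (fun c _ => hd c) ψ fun c hc => (hψ c hc).2
  have e : Q.rskel Q.cell 3 = Q.carrier := Q.skel_eq_carrier hd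
  refine ⟨Φ.cast e e, fun c hc x hx => (h1 (mem_iUnion₂.2 ⟨c, Or.inr hc, hx⟩)).trans
    (((hψ c (Or.inr hc)).1 hx).trans (hid c hc hx)), fun c => h2 c (hd c), fun c hc x hx => ?_⟩
  refine (h1 (mem_iUnion₂.2 ⟨c, Or.inl hc.le, hx⟩)).trans (((hψ c (Or.inl hc.le)).1 hx).trans ?_)
  rw [if_pos hc]

/-- a cell preserving reparametrisation which is the identity on the kept cells and on the
vertices, after which `P e ∘ g` has constant speed on the wire `e`; the variation of every map along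
every wire is unchanged -/
def RESPEED : Prop := ∀ {Ω Λ : Set E3} (Q : RCx E3) (G : Set Q.ι) (P : Q.ι → E3 ≃ᴬ[ℝ] E3)
  (g : ConHomeo Ω Λ), Q.Cvx → Q.carrier = Ω → (∀ i ∈ G, ∀ j, Q.cell j ⊆ Q.cell i → j ∈ G) →
  ∃ Θ : ConHomeo Ω Ω, (∀ i, Θ.toFun '' Q.cell i = Q.cell i) ∧
    (∀ i, i ∈ G ∨ Q.dim i = 0 → EqOn Θ.toFun id (Q.cell i)) ∧
    ∀ e x y, Q.dim e = 1 → Q.cell e = segment ℝ x y → Θ.toFun x = x ∧ Θ.toFun y = y ∧
      (∀ (T : Type) [PseudoEMetricSpace T] (k : E3 → T),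
        segVar (k ∘ Θ.toFun) x y = segVar k x y) ∧
      ((e ∈ G → ∃ A : E3 →ᵃ[ℝ] E3, EqOn g.toFun A (Q.cell e)) → ∀ u ∈ Q.cell e, ∀ w ∈ Q.cell e,
        edist (P e (g.toFun (Θ.toFun u))) (P e (g.toFun (Θ.toFun w))) * edist x y ≤
          segVar (P e ∘ g.toFun) x y * edist u w)

theorem respeed : RESPEED := by
  intro Ω Λ Q G P g hQ hc hG
  subst hc
  have H : ∀ e, ∃ θ : E3 → E3, Q.dim e = 1 → ((∃ Φ : ConHomeo (Q.cell e) (Q.cell e),
      EqOn Φ.toFun θ (Q.cell e)) ∧ EqOn θ id (Q.bd e) ∧ (e ∈ G → EqOn θ id (Q.cell e))) ∧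
      (e ∉ G → ∀ x y, Q.cell e = segment ℝ x y → ∀ u ∈ Q.cell e, ∀ w ∈ Q.cell e,
        edist (P e (g.toFun (θ u))) (P e (g.toFun (θ w))) * edist x y ≤
          segVar (P e ∘ g.toFun) x y * edist u w) := fun e => by
    by_cases hg : e ∈ G
    · exact ⟨id, fun _ => ⟨⟨⟨.refl (Q.ball e).conicalSet, fun _ _ => rfl⟩, fun _ _ => rfl,
        fun _ _ _ => rfl⟩, fun h => absurd hg h⟩⟩
    by_cases he : Q.dim e = 1
    · obtain ⟨p, q, -, -, hpq, hs, hb, -⟩ := hQ.exists_segment he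
      let k := g.restr (Q.ball e).conicalSet (Q.cell_subset_carrier e)
      obtain ⟨θ, t1, t2, t3⟩ := exists_speed hpq
        ((k.trans (.ofAffine (P e) k.conicalSet_right)).cast hs rfl)
      refine ⟨θ.toFun, fun _ => ⟨⟨⟨θ.cast hs.symm hs.symm, fun _ _ => rfl⟩, ?_,
        fun h => absurd h hg⟩, fun _ x y hxy u hu w hw => ?_⟩⟩
      · rw [hb]
        rintro _ (rfl | rfl)
        exacts [t1, t2]
      · rw [TP.segVar_congr _ (hxy.symm.trans hs), TP.edist_congr (hxy.symm.trans hs)]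
        exact t3 u (hs ▸ hu) w (hs ▸ hw)
    · exact ⟨id, fun h => absurd h he⟩
  choose θ hθ using H
  obtain ⟨Θ, a1, a2, a3⟩ := even (TP.dim_le_three hQ) hG θ fun e he => (hθ e he).1
  refine ⟨Θ, a2, fun i hi => ?_, fun e x y he hs => ?_⟩
  · refine hi.elim (a1 i) fun h x hx => ?_
    obtain ⟨a, ha⟩ := Q.exists_vertex h
    have h1 := (a2 i).le (mem_image_of_mem _ hx)
    rw [ha] at h1 hx
    exact h1.trans hx.symm
  obtain ⟨-, hxy, -, hb⟩ := Inf.wire_of hQ he hs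
  have b1 : EqOn Θ.toFun id (Q.bd e) := ((a3 e he).mono (Q.bd_subset e)).trans (hθ e he).1.2.1
  have hx : Θ.toFun x = x := b1 (by rw [hb]; exact Or.inl rfl)
  have hy : Θ.toFun y = y := b1 (by rw [hb]; exact Or.inr rfl)
  refine ⟨hx, hy, fun T _ k => segVar_comp k hxy ((Θ.restr (Q.ball e).conicalSet
    (Q.cell_subset_carrier e)).cast hs ((a2 e).trans hs)) hx hy, fun hA u hu w hw => ?_⟩
  by_cases hg : e ∈ G
  · obtain ⟨A, hA⟩ := hA hg
    rw [a1 e hg hu, a1 e hg hw]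
    exact speed_of_affine (k := P e ∘ g.toFun) ((P e).toAffineEquiv.toAffineMap.comp A)
      (fun z hz => congrArg (P e) (hA (hs ▸ hz))) (hs ▸ hu) (hs ▸ hw)
  · rw [a3 e he hu, a3 e he hw]
    exact (hθ e he).2 hg x y hs u hu w hw

end P073.Rf
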