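import Vale.Agent.P073Y.Rf.Refill
import Vale.Agent.P073Y.Inf.Real
import Vale.Agent.P073Z.TOPOF
import Vale.Agent.P073Z.Ax.All

/-!
# The topological machine with an output which is PL everywhere
-/

open Set Metric Topology Filter MeasureTheory
open scoped ENNReal NNReal

namespace P073.Rf

open Fill

/-- constant speed bounds the variation -/
theorem segVar_le_of_speed {h : E3 → E3} {x y : E3} {c : ℝ≥0∞} (hxy : x ≠ y)
    (H : ∀ u ∈ segment ℝ x y, ∀ w ∈ segment ℝ x y,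
      edist (h u) (h w) * edist x y ≤ c * edist u w) : segVar h x y ≤ c := by
  rcases eq_or_ne c ⊤ with rfl | hc
  · exact le_top
  lift c to ℝ≥0 using hc
  have h1 : LipschitzOnWith c (fun s : ℝ => h (AffineMap.lineMap x y s)) (Icc 0 1) := by
    intro s hs t ht
    have h2 := H _ (lineMap_mem_segment ℝ x y hs) _ (lineMap_mem_segment ℝ x y ht)
    have e : edist (AffineMap.lineMap x y s) (AffineMap.lineMap x y t) = edist s t * edist x y := by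
      rw [edist_nndist, edist_nndist, edist_nndist, nndist_lineMap_lineMap, ENNReal.coe_mul]
    rw [e, ← mul_assoc] at h2
    exact (ENNReal.mul_le_mul_iff_left (edist_pos.2 hxy).ne' (edist_ne_top x y)).1 h2
  have h3 := h1.comp_eVariationOn_le (g := id) (s := Icc (0:ℝ) 1) (mapsTo_id _)
  have h4 := (monotone_id (α := ℝ)).monotoneOn (Icc (0:ℝ) 1) |>.eVariationOn_eq
    (left_mem_Icc.2 zero_le_one) (right_mem_Icc.2 zero_le_one)
  rw [inter_self] at h4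
  refine h3.trans ((mul_le_mul_right h4.le _).trans ?_)
  simp

/-- parametrisation of a realisation of the two-skeleton and filling of the three-cells -/
def FILLP : Prop := ∀ {p : ℝ}, 1 ≤ p → p < 2 → ∃ C : ℝ≥0 → ℝ≥0,
  ∀ {Ω Λ : Set E3} (Q : RCx E3) (R : Q.ι → Set E3) (G : Set Q.ι) (A : Q.ι → E3 →ᵃ[ℝ] E3)
    (O : Q.ι → Set E3) (n : Q.ι → E3 ≃ᴬ[ℝ] E3) (M : Q.ι → ℝ≥0) (η : Q.ι → ℝ≥0∞),
  IsOpen Ω → Ω.Nonempty → IsPreconnected Λ → Q.Cvx → Q.carrier = Ω → Realiz Q 2 R →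
  (∀ i ∈ G, InjOn (A i) (Q.cell i) ∧
    (∀ j, Q.cell j ⊆ Q.cell i → j ∈ G ∧ EqOn (A j) (A i) (Q.cell j)) ∧
    (Q.dim i ≤ 2 → R i = A i '' Q.cell i)) →
  (∀ i, Q.dim i = 3 → Convex ℝ (O i) ∧ O i ⊆ Λ ∧
    ∀ j, Q.dim j ≤ 2 → Q.cell j ⊆ Q.cell i → R j ⊆ O i) → LFIn O Λ →
  (∀ i, 2 ≤ Q.dim i → BiChart (Q.dim i) (n i '' Q.cell i) (n i '' Q.bd i) (M i)) →
  (∀ i, 0 < η i) →
  ∃ h : ConHomeo Ω Λ, (∀ i, Q.dim i ≤ 2 → h.toFun '' Q.cell i = R i) ∧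
    (∀ i, Q.dim i = 3 → h.toFun '' Q.cell i ⊆ O i) ∧
    (∀ i ∈ G, EqOn h.toFun (A i) (Q.cell i)) ∧
    (∀ e x y, Q.dim e = 1 → Q.cell e = segment ℝ x y → ∀ u ∈ Q.cell e, ∀ w ∈ Q.cell e,
      edist (h.toFun u) (h.toFun w) * edist x y ≤ μH[1] (R e) * edist u w) ∧
    ∀ i, i ∉ G → Q.dim i = 2 →
      En 2 p (h.toFun ∘ (n i).symm) (n i '' Q.cell i) ≤
        C (M i) * En 1 p (h.toFun ∘ (n i).symm) (n i '' Q.bd i) + η i

theorem fillp : FILLP := by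
  intro p hp1 hp2
  choose C2 hC2 using cone2 hp1 hp2
  refine ⟨C2, ?_⟩
  intro Ω Λ Q R G A O n M η hΩ hne hΛc hQ hcar hR hG hO hlf hB hη
  subst hcar
  obtain ⟨ψ, p1, p2, p3, p4⟩ := two (C := C2) (fun M => hC2 M) hQ hR hG hB hη
  let e := ψ.cast (iUnion_bd hQ hΩ) rfl
  have H : ∀ i : {i // Q.dim i = 3}, ∃ Φ : ConHomeo (Q.cell i)
      (e.toFun '' Q.bd i ∪ Inside (e.toFun '' Q.bd i)), EqOn Φ.toFun e.toFun (Q.bd i) ∧
      (i.1 ∈ G → EqOn Φ.toFun (A i) (Q.cell i)) := by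
    intro i
    have hb := ball3 i.2
    by_cases hg : i.1 ∈ G
    · obtain ⟨Φ, hΦ⟩ := exists_aff hG hg
      have he : EqOn (A i) e.toFun (Q.bd i) := eqOn_bd hG p2 i.2.le hg
      have h1 := hb.image Φ Subset.rfl
      rw [hΦ] at h1
      refine ⟨Φ.cast rfl ?_, fun x hx => (congrFun hΦ x).trans (he hx),
        fun _ x _ => congrFun hΦ x⟩
      rw [← image_congr he, jb.2 h1, union_sdiff_cancel h1.1]
    · obtain ⟨Φ, h1, -⟩ := hb.exists_extend (Ax.alex (ASM.sphere_img e (fun i => ball3 i.2) i))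
        (e.restr hb.conicalSet_bdry (subset_iUnion (fun i : {i // Q.dim i = 3} => Q.bd i) i))
      exact ⟨Φ, h1, fun h => absurd h hg⟩
  choose Φ a1 a2 using H
  have hO' : ∀ i : {i // Q.dim i = 3}, Convex ℝ (O i) ∧ e.toFun '' Q.bd i ⊆ O i ∧ O i ⊆ Λ :=
    fun i => ⟨(hO i i.2).1, by
      rw [show e.toFun '' Q.bd i = Q.rbd R i from image_bd ψ p1 i.2.le]
      intro y hy
      obtain ⟨j, hj, hy⟩ := Q.mem_rbd.1 hy
      have := Q.dim_lt hj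
      have := i.2
      exact (hO i i.2).2.2 j (by omega) (hj.trans (Q.bd_subset i)) hy, (hO i i.2).2.1⟩
  have hl : LFIn (fun i : {i // Q.dim i = 3} => Q.cell i) Q.carrier :=
    Q.lfIn.comp_injective Subtype.val_injective
  obtain ⟨-, F, F', b1, b2⟩ := ASM.glue jb iod (T := fun i : {i // Q.dim i = 3} => Q.cell i)
    (O := fun i => O i) e hΩ hne hΛc (fun i => ball3 i.2) (iUnion_cell hQ hΩ) hl
    (fun i j hij => tiles hQ i.2 j.2 fun h => hij (Subtype.ext h)) hO'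
    (hlf.comp_injective Subtype.val_injective) fun i => ⟨homeoOn_con (Φ i), a1 i⟩
  have hc : ConicalOn F Q.carrier := by
    have rT : RelLF fun i : {i // Q.dim i = 3} => Q.cell i :=
      ⟨(iUnion_cell hQ hΩ).symm ▸ hl, fun i z _ hz => (Q.isClosed_cell i).closure_subset hz⟩
    exact iUnion_cell hQ hΩ ▸ rT.conicalOn fun i => (Φ i).conical.congr (b2 i)
  have hF : EqOn F ψ.toFun (Q.skel 2) := by
    intro x hx
    rw [iUnion_bd hQ hΩ] at hx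
    obtain ⟨i, hx⟩ := mem_iUnion.1 hx
    rw [b2 i (Q.bd_subset i hx)]
    exact a1 i hx
  refine ⟨⟨F, F', b1.mapsTo, b1.mapsTo_inv, b1.left_inv, b1.right_inv, b1.cont, b1.cont_inv, hc⟩,
    fun i hi => ((hF.mono (Q.cell_subset_skel hi)).image_eq).trans (p1 i hi), fun i hi => ?_,
    fun i hg => ?_, fun e x y he hs u hu w hw => ?_, fun i hg hi => ?_⟩
  · exact (b2 ⟨i, hi⟩).image_eq.le.trans ((Φ ⟨i, hi⟩).mapsTo.image_subset.trans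
      (ASM.fill_subset jb e (fun i => ball3 i.2) hO' ⟨i, hi⟩))
  · by_cases hi : Q.dim i = 3
    · exact (b2 ⟨i, hi⟩).trans (a2 ⟨i, hi⟩ hg)
    · have h2 : Q.dim i ≤ 2 := by have := TP.dim_le_three hQ i; omega
      exact (hF.mono (Q.cell_subset_skel h2)).trans (p2 i hg h2)
  · have hs' := Q.cell_subset_skel (i := e) (k := 2) (by omega)
    show edist (F u) (F w) * _ ≤ _
    rw [hF (hs' hu), hF (hs' hw)]
    exact p3 e x y he hs u hu w hw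
  · have := (p4 i hg hi).congr (hF.mono (Q.cell_subset_skel hi.le))
    unfold EB at this
    rwa [hi] at this

/-- every ball has a chart with some constant -/
theorem exists_chart {k : ℕ} {C B : Set E3} (h : ConBall k C B) : ∃ M, BiChart k C B M := by
  obtain ⟨M₁, h₁⟩ := lip h.isCompact h.locCone ⟨h.2.choose.cont, h.2.choose.conical⟩
  obtain ⟨M₂, h₂⟩ := lip (isCompact_closedBall _ _) (locCone_closedBall_pi k 1)
    ⟨h.2.choose.cont_inv, h.2.choose.conical_inv⟩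
  exact ⟨max M₁ M₂, h.1, h.2.choose, h.2.choose_spec, h₁.weaken (le_max_left _ _),
    h₂.weaken (le_max_right _ _)⟩

/-- the output of the machine -/
structure Out {Ω Λ : Set E3} (Q : RCx E3) (f : E3 → E3) (O : Q.ι → Set E3) (K₂ : ℝ≥0)
    (η : Q.ι → ℝ≥0∞) (g : ConHomeo Ω Λ) : Prop where
  img : ∀ l i, Q.cell i ⊆ Q.cell l → g.toFun '' Q.cell i ⊆ O l
  speed : ∀ e x y, Q.dim e = 1 → Q.cell e = segment ℝ x y → ∀ u ∈ Q.cell e, ∀ w ∈ Q.cell e,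
    edist (g.toFun u) (g.toFun w) * edist x y ≤ (K₂ * segVar f x y + η e) * edist u w
  var : ∀ e x y, Q.dim e = 1 → Q.cell e = segment ℝ x y →
    segVar g.toFun x y ≤ K₂ * segVar f x y + η e

/-- the filling without charts -/
theorem fill0 {Ω Λ : Set E3} {Q : RCx E3} {R : Q.ι → Set E3} {G : Set Q.ι}
    {A : Q.ι → E3 →ᵃ[ℝ] E3} {O : Q.ι → Set E3} {f : E3 → E3} {K₂ : ℝ≥0} {η : Q.ι → ℝ≥0∞}
    (hΩ : IsOpen Ω) (hne : Ω.Nonempty) (hΛ : IsPreconnected Λ) (hQ : Q.Cvx) (hc : Q.carrier = Ω)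
    (hR : Realiz Q 2 R) (hG : GoodA Q R G A) (hO : ∀ i, Q.dim i = 3 → Convex ℝ (O i) ∧ O i ⊆ Λ)
    (hRO : ∀ l i, Q.dim i ≤ 2 → Q.cell i ⊆ Q.cell l → R i ⊆ O l) (hlf : LFIn O Λ)
    (hl : ∀ e x y, Q.dim e = 1 → Q.cell e = segment ℝ x y →
      μH[1] (R e) ≤ K₂ * segVar f x y + η e) :
    ∃ g : ConHomeo Ω Λ, Out Q f O K₂ η g ∧ ∀ i ∈ G, EqOn g.toFun (A i) (Q.cell i) := by
  obtain ⟨C, hC⟩ := fillp le_rfl one_lt_two
  choose M hM using fun i => exists_chart (Q.ball i)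
  obtain ⟨g, g1, g2, g3, g4, -⟩ := hC Q R G A O (fun _ => .refl ℝ E3) M (fun _ => 1) hΩ hne hΛ hQ
    hc hR hG (fun i hi => ⟨(hO i hi).1, (hO i hi).2, hRO i⟩) hlf
    (fun i _ => by simpa using hM i) fun _ => one_pos
  have hs := fun e x y he hxy u hu w hw =>
    (g4 e x y he hxy u hu w hw).trans (mul_le_mul_left (hl e x y he hxy) _)
  refine ⟨g, ⟨fun l i hil => ?_, hs, fun e x y he hxy => segVar_le_of_speed
    (Inf.wire_of hQ he hxy).2.1 fun u hu w hw => hs e x y he hxy u (hxy ▸ hu) w (hxy ▸ hw)⟩, g3⟩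
  by_cases hi : Q.dim i ≤ 2
  · exact g1 i hi ▸ hRO l i hi hil
  · have h3 := TP.dim_le_three hQ l
    obtain rfl := Q.eq_of_subset_of_dim_le hil (by omega)
    exact g2 i (by omega)

/-- the machine, finitely many good cells -/
def TOPO1 : Prop := ∃ (κ₀ : ℝ → ℝ) (K₂ : ℝ≥0), (∀ M, 0 < κ₀ M) ∧
  ∀ {Ω Λ : Set E3} {f f' : E3 → E3} (Q : RCx E3) {β : ℝ} (γ : Good Q f κ₀ β)
    (O : Q.ι → Set E3) (ϱ : Q.ι → ℝ) (η : Q.ι → ℝ≥0∞),
  IsOpen Ω → IsOpen Λ → IsConnected Ω → IsConnected Λ → Bornology.IsBounded Λ → 0 < β →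
  HomeoOn f f' Ω Λ → GenBV f Ω → Q.Cvx → Q.carrier = Ω →
  (∀ e x y, Q.dim e = 1 → Q.cell e = segment ℝ x y → segVar f x y < ⊤) →
  (∀ i, Convex ℝ (O i) ∧ O i ⊆ Λ ∧ 0 < ϱ i ∧ thickening (ϱ i) (f '' Q.cell i) ⊆ O i ∧
    ((∃ j ∈ γ.G, (thickening (100 * β) (γ.A j '' Q.cell j) ∩ f '' Q.cell i).Nonempty) →
      100 * β ≤ ϱ i)) → LFIn O Λ →
  (∀ j ∈ γ.G, cthickening (100 * β) (γ.A j '' Q.cell j) ⊆ Λ) → (∀ i, 0 < η i) →
  ∃ g : ConHomeo Ω Λ, Out Q f O K₂ η g ∧ ∀ i ∈ γ.G, EqOn g.toFun (γ.A i) (Q.cell i)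

theorem topo1 : TOPO1 := by
  obtain ⟨κ₀, K₂, hκ₀, hreal⟩ := TP.exists_real grid t0_thm sq_thm str_thm flat
  refine ⟨κ₀, K₂, hκ₀, ?_⟩
  intro Ω Λ f f' Q β γ O ϱ η hΩ hΛ hΩc hΛc hΛb hβ hf hG hQ hQΩ hV hO hOlf hth hη
  obtain ⟨R, hR, hRG, hRO, hRl⟩ := hreal Q γ O ϱ η hΩ hΛ hΩc hΛb hβ hf hG hQ hQΩ hV
    (fun i => (hO i).2.2) hth hη
  exact fill0 (G := γ.G) hΩ hΩc.nonempty hΛc.isPreconnected hQ hQΩ hR
    (fun i hi => ⟨γ.inj i hi, fun j hj => ⟨(γ.face i hi j hj).1, (γ.face i hi j hj).2.2.2⟩,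
      hRG i hi⟩) (fun i _ => ⟨(hO i).1, (hO i).2.1⟩) hRO hOlf hRl

/-- the machine, a locally finite family of zones -/
def TOPOI : Prop := ∃ K₂ : ℝ≥0, ∀ {Ω Λ : Set E3} {f f' : E3 → E3} {Q : RCx E3} {β : ℕ → ℝ}
  {γ : ∀ n, Good Q f STR.kap (β n)} {O : Q.ι → Set E3} {ϱ : Q.ι → ℝ} (η : Q.ι → ℝ≥0∞),
  Inf.Data Ω Λ f f' Q STR.kap β γ O ϱ → IsPreconnected Λ → (∀ i, Q.dim i = 3 → Convex ℝ (O i)) →
  (∀ i, 0 < η i) →
  ∃ g : ConHomeo Ω Λ, Out Q f O K₂ η g ∧ ∀ n, ∀ i ∈ (γ n).G, EqOn g.toFun ((γ n).A i) (Q.cell i)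

theorem topoI : TOPOI := by
  obtain ⟨K₂, hK⟩ := Inf.reali
  refine ⟨K₂, ?_⟩
  intro Ω Λ f f' Q β γ O ϱ η D hΛ hO hη
  obtain ⟨R, hR, hRG, hRO, hRl⟩ := hK η D hη
  have hu : ∀ n m i j, i ∈ (γ n).G → j ∈ (γ m).G → Q.cell j ⊆ Q.cell i → n = m := by
    intro n m i j hi hj hji
    by_contra hne
    obtain ⟨v, hvj, hv⟩ := T0.exists_vertex (K := Q) j
    obtain ⟨x, hx⟩ := Q.exists_vertex hv
    have h1 : f x ∈ O v := D.thick v (self_subset_thickening (D.rpos v) _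
      (mem_image_of_mem _ (hx ▸ mem_singleton x)))
    exact disjoint_left.1 (D.sep n m hne v v
      ⟨_, h1, self_subset_cthickening _
        (Inf.vert_gim (γ n) D.cvx ((γ n).face i hi v (hvj.trans hji)).1 hx)⟩
      ⟨_, h1, self_subset_cthickening _
        (Inf.vert_gim (γ m) D.cvx ((γ m).face j hj v hvj).1 hx)⟩) h1 h1
  have hA : ∀ i, ∃ A : E3 →ᵃ[ℝ] E3, ∀ n, i ∈ (γ n).G → A = (γ n).A i := fun i => by
    by_cases h : ∃ n, i ∈ (γ n).G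
    · obtain ⟨n, hn⟩ := h
      exact ⟨(γ n).A i, fun m hm => hu n m i i hn hm Subset.rfl ▸ rfl⟩
    · exact ⟨0, fun n hn => absurd ⟨n, hn⟩ h⟩
  choose A hA using hA
  obtain ⟨g, g1, g2⟩ := fill0 (G := {i | ∃ n, i ∈ (γ n).G}) (A := A) D.oΩ D.cΩ.nonempty hΛ D.cvx
    D.car hR (fun i ⟨n, hi⟩ => by
      rw [hA i n hi]
      refine ⟨(γ n).inj i hi, fun j hj => ?_, hRG n i hi⟩
      have := (γ n).face i hi j hj
      exact ⟨⟨n, this.1⟩, hA j n this.1 ▸ this.2.2.2⟩)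
    (fun i hi => ⟨hO i hi, D.sub i⟩) hRO D.lf hRl
  exact ⟨g, g1, fun n i hi => hA i n hi ▸ g2 i ⟨n, hi⟩⟩

end P073.Rf
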